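import Vale.Agent.P014U.Iv.Inv
import Vale.Agent.P014T.Iv.Two

/-!
# P014U, block INV: the value at the prime, conjugation (helper37)
-/

set_option linter.all false

noncomputable section

namespace Vale.Agent.P014U.Iv

open NumberField Topology Filter
open Vale.Agent.P022 Vale.Agent.P022K
open Vale.Agent.P022D.W (dec inP_le_dec phi_mem conj_inP exists_phi)
open Vale.Agent.P022.H443 (inP)
open Vale.Agent.P022E.GW (Ov Fb)
open Vale.Agent.P014U.X4S.Ga (K O mem_O d2 d3 Z2 B2)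
open Vale.Agent.P014U.X4S.Aq Vale.Agent.P014U.X4F.Rc Vale.Agent.P014U.Sy
open scoped Pointwise

export Vale.Agent.P014T.Iv (dec_cj ex_st)

variable [Pp]

variable {l n : ℕ} {P : Ideal (𝓞 Qb)} {D Γ : Subgroup GQ} {z w : GQ → GQ → K} {θ : GQ → K}
  {β β' γ : Qb} {t : K} {φ c : GQ}

theorem iv_mul (o : Ov l P) (k : Rt (dec P) n β) (k' : Rt (dec P) n β') (hu : Ad (dec P) θ)
    (lu : Lv (dec P) n θ) (e : γ ^ pp ^ n = β ^ pp ^ n * β' ^ pp ^ n) :
    iv P (cp n θ γ) = iv P (cp n θ β) + iv P (cp n θ β') := by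
  rw [← map_add, iv_eq o (cp_cmp (k.mul k') hu lu one_ne_zero (fun g _ => map_one g)
    (by rw [e, mul_pow, one_pow, mul_one]))]
  exact iv_congr o fun g hg j hj => cp_mul k k' lu hg hj

theorem iv_lev (o : Ov l P) {m : ℕ} (k : Rt (dec P) (n + m) β) (lu : Lv (dec P) n θ) :
    iv P (cp (n + m) θ β) = iv P (cp n θ (β ^ pp ^ m)) :=
  (iv_congr o fun g hg j hj => cp_lev k lu hg hj).symm

theorem lam_lv (D : Subgroup GQ) (ht : (pp : K) ^ n * (pp * t) ∈ O) : Lv D n fun g => t * lam g :=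
  fun g _ => O_of (O_mul ht (Lg_four (un_cy g))) (by 
    have := pk_ne
    simp only [lam, hn_one]; field_simp)

/-- characters which are unramified outside the prime -/
structure U2 (n : ℕ) (θ : GQ → K) : Prop where
  ad : Ad ⊤ θ
  lv : Lv ⊤ n θ
  ur : ∀ l Q, Ov l Q → l ≠ pp → ∀ i ∈ inP Q, θ i ∈ O

theorem U2.loc (u : U2 n θ) (o : Ov l P) (h2 : l ≠ pp) : Ur P n θ :=
  ⟨u.ad.mono le_top, fun g _ => u.lv g trivial, u.ur l P o h2⟩

theorem u2_lam (ht : (pp : K) ^ n * (pp * t) ∈ O) : U2 n fun g => t * lam g :=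
  ⟨lam_ad _ _, lam_lv _ ht, fun l Q o h2 i m => by simp [lam_in o h2 m]⟩

theorem U2.one (u : U2 n θ) (o : Ov pp P) (hβ : β ^ pp ^ n = (-1 : ℤ))
    (h0 : ∃ v, B2 cy (G2.St (G2.ip v)) (cp n θ β)) : iv P (cp n θ β) = 0 := by
  simpa using Iv.rec (cp_z2 (rt_int hβ (by decide)) u.ad u.lv) {pp} (fun _ => P) (by simpa using o)
    (fun p hp m => (GW.Pl.ex_ov hp).imp fun Q q => ⟨q, cp_unr q (by simpa using m) hβ (fun d =>
      hp.ne_one (by exact_mod_cast Int.eq_one_of_dvd_one (by simp) (dvd_neg.1 d)))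
      (u.loc q (by simpa using m))⟩) h0

theorem U2.prime (u : U2 n θ) (o : Ov pp P) {Q : Ideal (𝓞 Qb)} (q : Ov l Q) (h2 : l ≠ pp)
    (h : Fb l Q φ) (hβ : β ^ pp ^ n = l) (h0 : ∃ v, B2 cy (G2.St (G2.ip v)) (cp n θ β)) :
    iv P (cp n θ β) = -mq (θ φ) := by
  have := Iv.rec (cp_z2 (rt_nat hβ q.1.ne_zero) u.ad u.lv) {pp, l} (fun p => if p = pp then P else Q)
    (by simpa [h2] using ⟨o, q⟩) (fun p hp m => (GW.Pl.ex_ov hp).imp fun R r => by
      simp only [Finset.mem_insert, Finset.mem_singleton, not_or] at m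
      exact ⟨r, cp_unr r m.1 (b := l) (by simpa using hβ) (fun d => m.2
        ((Nat.prime_dvd_prime_iff_eq hp q.1).1 (Int.natCast_dvd_natCast.1 d))) (u.loc r m.1)⟩) h0
  rw [Finset.sum_pair h2.symm, if_pos rfl, if_neg h2, iv_tame q h2 h hβ (u.loc q h2)] at this
  exact eq_neg_of_add_eq_zero_left this

/-- **the value at the prime** -/
theorem iv_lam (o : Ov pp P) (ht : (pp : K) ^ n * (pp * t) ∈ O) {a : ℤ} (ha : ¬ (pp : ℤ) ∣ a)
    (hβ : β ^ pp ^ n = a) : iv P (cp n (fun g => t * lam g) β) = -mq (t * Lg a) := by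
  let T : ℤ → Prop := fun a => ∀ β : Qb, β ^ pp ^ n = a →
    iv P (cp n (fun g => t * lam g) β) = -mq (t * Lg a)
  have ne : ∀ {a : ℤ}, ¬ (pp : ℤ) ∣ a → a ≠ 0 := fun h e => by simp [e] at h
  have n1 : ¬ (pp : ℤ) ∣ -1 := fun d =>
    one_lt.ne' (by exact_mod_cast Int.eq_one_of_dvd_one (by simp) (dvd_neg.1 d))
  have mul : ∀ a b : ℤ, ¬ (pp : ℤ) ∣ a → ¬ (pp : ℤ) ∣ b → T a → T b → T (a * b) := fun a b h h' x y γ e => by
    obtain ⟨β, e1⟩ := ex_rt n a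
    obtain ⟨β', e2⟩ := ex_rt n b
    rw [iv_mul o (rt_int e1 (ne h)) (rt_int e2 (ne h')) (lam_ad _ _) (lam_lv _ ht)
      (by rw [e, e1, e2, Int.cast_mul]), x _ e1, y _ e2, Int.cast_mul,
      Lg_mul (un_int h) (un_int h'), mul_add, map_add, neg_add]
  have m1 : T (-1) := fun β e => by
    rw [(u2_lam ht).one o e ⟨.mk em, cp_inf e (by decide) _⟩,
      Lg_tor two_ne_zero (by simp)]
    simp
  have nat : ∀ a : ℕ, ¬ pp ∣ a → T a := fun a => by
    induction a using induction_on_primes with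
    | zero => simp
    | one => exact fun _ => mul _ _ n1 n1 m1 m1
    | prime_mul p a hp ih =>
      intro h
      rw [pp_prime.dvd_mul, not_or] at h
      obtain ⟨Q, q⟩ := GW.Pl.ex_ov hp
      obtain ⟨φ, f⟩ := exists_phi q.1 q.2.1 q.2.2
      have p2 : p ≠ pp := fun e => h.1 (e ▸ dvd_rfl)
      rw [Nat.cast_mul]
      refine mul _ _ (mt Int.natCast_dvd_natCast.1 h.1) (mt Int.natCast_dvd_natCast.1 h.2)
        (fun β e => ?_) (ih h.2)
      rw [(u2_lam ht).prime o q p2 f (by simpa using e) ⟨.mk em, cp_inf e (by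
        simpa using hp.ne_zero) _⟩, lam_fb q p2 f, Int.cast_natCast]
  have hb := mt Int.natCast_dvd.2 ha
  have := nat _ hb
  rcases Int.natAbs_eq a with e | e
  · exact (by rwa [← e] at this : T a) β hβ
  · refine (?_ : T a) β hβ
    rw [e, ← neg_one_mul]
    exact mul _ _ n1 (mt Int.natCast_dvd_natCast.1 hb) m1 this

/-! ### conjugation -/

theorem b2_cj (hz : Z2 cy Γ z) {A A' : Subgroup GQ} (le : A ≤ Γ) {g : GQ} (hg : g ∈ Γ)
    (e : ∀ x ∈ A', g⁻¹ * x * g ∈ A) (h : B2 cy A z) : B2 cy A' z := by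
  have m : ∀ a ∈ Γ, ∀ b ∈ Γ, a⁻¹ * b ∈ Γ := fun a ha b hb => mul_mem (inv_mem ha) hb
  have hZ : Hz A Γ fun x => cy x.1 * z (x.1⁻¹ * x.2.1) (x.2.1⁻¹ * x.2.2) :=
    ⟨(cy_cont.comp continuous_fst).continuousOn.mul (hz.cont.comp
      (f := fun x : GQ × GQ × GQ => (x.1⁻¹ * x.2.1, x.2.1⁻¹ * x.2.2)) (by fun_prop)
      fun x h => ⟨m _ h.1 _ h.2.1, m _ h.2.1 _ h.2.2⟩), fun a ha b hb d hd f hf => O_of
        (O_mul (O_cy a) (hz.coc _ (m a ha b hb) _ (m b hb d hd) _ (m d hd f hf))) (by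
          have : cy a * cy (a⁻¹ * b) = cy b := by rw [← map_mul, mul_inv_cancel_left]
          simp only [d3, mul_assoc, mul_inv_cancel_left, ← this]
          ring), fun γ _ x _ => O_of (zero_mem _) (by
      simp only [Prod.smul_fst, Prod.smul_snd, smul_eq_mul, map_mul, mul_inv_rev, mul_assoc,
        inv_mul_cancel_left, sub_self])⟩
  obtain ⟨Θ, c1, c2, c3⟩ := prism (X := {x | x * g ∈ A}) hZ
    (fun x hx => (Γ.mul_mem_cancel_right hg).1 (le hx)) le (p := fun x => x * g) (by fun_prop)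
    (fun _ h => h) (fun γ _ x => mul_assoc _ _ _) (by simpa using h)
  have x1 : g⁻¹ ∈ {x | x * g ∈ A} := by simpa using A.one_mem
  refine ⟨fun a => cy g * Θ (g⁻¹, g⁻¹ * a), continuousOn_const.mul (c1.comp
    (f := fun a : GQ => (g⁻¹, g⁻¹ * a)) (by fun_prop) fun a ha => ⟨x1, e a ha⟩),
    fun a ha b hb => ?_⟩
  have e1 := c3 _ x1 _ (e a ha) _ (e _ (mul_mem ha hb))
  have e2 := c2 _ (e a ha) (g⁻¹, g⁻¹ * b) ⟨x1, e b hb⟩
  simp only [Prod.smul_mk, smul_eq_mul, mul_assoc, mul_inv_cancel, mul_one, mul_inv_cancel_left,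
    inv_inv, mul_inv_rev, inv_mul_cancel_left, map_mul] at e1 e2
  refine O_of (O_mul (O_cy g) (add_mem e1 e2)) ?_
  simp only [d2]
  linear_combination (cy g * cy a * Θ (g⁻¹, g⁻¹ * b) - z a b) * cy_inv g

theorem b2_smul (hz : Z2 cy ⊤ z) (g : GQ) (h : B2 cy (dec P) z) : B2 cy (dec (g • P)) z :=
  b2_cj hz le_top (g := g) trivial (fun _ => dec_cj) h

theorem iv_conj (o : Ov l P) (hz : Z2 cy ⊤ z) (g : GQ) : iv (g • P) z = iv P z := by
  obtain ⟨t, ht⟩ := QuotientAddGroup.mk'_surjective O (iv P z)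
  obtain ⟨k, hk⟩ := lv_of isClosed_univ (ps_ad ⊤ l t)
  obtain ⟨k', hk'⟩ := lev_ex t
  have t1 := lev_up hk' (k'.le_add_left k)
  obtain ⟨β, hβ⟩ := ex_rt (k + k') (bs l)
  have zw : z - _ ∈ ZZ ⊤ := sub_mem hz
    (cp_z2 (rt_nat hβ (bs_ne o.1)) (ps_ad ⊤ l t) (hk.up (k.le_add_right k')))
  rw [iv_eq (GW.ov_smul o g) (b2_smul zw g ((iv_iff o (z2_mono zw le_top)).1 (by
    rw [map_sub, iv_ps o hβ t1, ← ht]; exact sub_self _))), iv_ps (GW.ov_smul o g) hβ t1]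
  exact ht

theorem iv_ind (o : Ov l P) {Q : Ideal (𝓞 Qb)} (q : Ov l Q) (hz : Z2 cy ⊤ z) : iv Q z = iv P z := by
  obtain ⟨g, rfl⟩ := GW.Pl.ov_trans o q
  exact iv_conj o hz g

/-! ### the real place -/

theorem cy_conj (h : P022.IsConj c) : cy c = -1 := by
  obtain ⟨f, h⟩ := h
  refine eq_neg_of_add_eq_zero_left (zero_of fun n => O_of ((ex_one (x := cy c * hn n + hn n)).1
    (f.injective ?_)) (by ring))
  rw [ex_add, ← ex_cy, map_mul, h, map_one, Complex.conj_mul', Complex.norm_eq_one_of_pow_eq_one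
    (n := pp ^ n) (by rw [← map_pow, (ex_prim' n).pow_eq_one, map_one]) (pow_ne_zero _ pp_ne)]
  simp

end Vale.Agent.P014U.Iv
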