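import Vale.Agent.P014U.X4F.Rec.Cor
import Vale.Agent.P014U.Sy.Ex
import Vale.Agent.P014U.Ah.Log

/-!
# P014U, block INV: cup products with Kummer classes, the logarithm (helper37)
-/

set_option linter.all false

noncomputable section

namespace Vale.Agent.P014U.Iv

open NumberField Topology Filter
open Vale.Agent.P022 Vale.Agent.P022K
open Vale.Agent.P022D.W (dec inP_le_dec)
open Vale.Agent.P022.H443 (inP)
open Vale.Agent.P022E.GW (Ov Fb)
open Vale.Agent.P014U.X4S.Ga (K O mem_O d2 d3 Z2 B2)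
open Vale.Agent.P014U.X4S.Aq Vale.Agent.P014U.X4F.Rc Vale.Agent.P014U.Sy

variable [Pp]

theorem O_int (c : ℤ) : (c : K) ∈ O := intCast_mem (PadicInt.subring pp) c

theorem int_iff (n : ℕ) (c : ℤ) : hn n * c ∈ O ↔ ((pp ^ n : ℕ) : ℤ) ∣ c := by
  rw [← ZMod.intCast_zmod_eq_zero_iff_dvd, ← map_intCast (PadicInt.toZModPow (p := pp) n), dv_iff,
    PadicInt.coe_intCast, hn]

theorem hn_zero : hn 0 = 1 := by simp [hn]

theorem hn_one : hn 1 = (pp : K)⁻¹ := by simp [hn]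

theorem ex_lv (x : K) : ∃ n m : ℕ, x - hn n * m ∈ O :=
  (lev_ex x).imp fun _ h => lev_apx h

theorem zero_of {x : K} (h : ∀ n, hn n * x ∈ O) : x = 0 := by
  by_contra e
  obtain ⟨n, k⟩ := bdd (S := {x⁻¹}) isCompact_singleton continuousOn_id
  refine half_not (O_of (O_mul (h (n + 1)) (k _ rfl)) ?_)
  have := pk_ne
  rw [id, hn]
  field_simp
  ring

theorem mq_int (c : ℤ) (x : K) : mq (c * x) = c • mq x := by rw [← map_zsmul, zsmul_eq_mul]

theorem mq_nat (c : ℕ) (x : K) : mq (c * x) = c • mq x := by rw [← map_nsmul, nsmul_eq_mul]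

/-- a characterisation of `K ⧸ O` -/
theorem ex_iso {H : Type} [AddCommGroup H] (tor : ∀ a : H, ∃ k : ℕ, pp ^ k • a = 0)
    (two : ∀ a b : H, pp • a = 0 → pp • b = 0 → b ≠ 0 → ∃ c : ℤ, a = c • b) (x : ℕ → H)
    (x0 : x 0 = 0) (x1 : x 1 ≠ 0) (xs : ∀ n, pp • x (n + 1) = x n) :
    ∃ f : H →+ K ⧸ O, Function.Injective f ∧ ∀ n, f (x n) = mq (hn n) := by
  have up : ∀ n k, ((pp ^ k : ℕ) : ℤ) • x (n + k) = x n := fun n k => by
    rw [natCast_zsmul]
    induction k with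
    | zero => simp
    | succ k ih => rw [pow_succ, mul_smul, ← add_assoc, xs, ih]
  have t1 : pp • x 1 = 0 := (xs 0).trans x0
  have ord : ∀ n (c : ℤ), c • x n = 0 ↔ ((pp ^ n : ℕ) : ℤ) ∣ c := fun n c => by
    refine ⟨fun h => ?_, fun ⟨d, e⟩ => by
      have := up 0 n
      rw [zero_add] at this
      rw [e, mul_comm, mul_smul, this, x0, smul_zero]⟩
    induction n with
    | zero => simp
    | succ n ih =>
      obtain ⟨d, rfl⟩ := ih (by rw [← xs, smul_comm, h, smul_zero])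
      rw [mul_comm, mul_smul, add_comm, up, ← addOrderOf_dvd_iff_zsmul_eq_zero,
        addOrderOf_eq_prime t1 x1] at h
      rw [pow_succ, Nat.cast_mul]
      exact mul_dvd_mul_left _ h
  have gen : ∀ k a, pp ^ k • a = 0 → ∃ c : ℤ, a = c • x k := fun k => by
    induction k with
    | zero => exact fun a h => ⟨0, by simpa using h⟩
    | succ k ih =>
      intro a h
      obtain ⟨c, e⟩ := ih (pp • a) (by rwa [← mul_smul, ← pow_succ])
      obtain ⟨d, hd⟩ := two (a - c • x (k + 1)) _ (by rw [smul_sub, smul_comm, xs, e, sub_self]) t1 x1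
      exact ⟨d * (pp ^ k : ℕ) + c, by
        rw [add_smul, mul_smul, add_comm k, up, ← hd, add_comm 1, sub_add_cancel]⟩
  choose k hk using tor
  choose c hc using fun a => gen (k a) a (hk a)
  have wd : ∀ a n (d : ℤ), a = d • x n → mq (c a * hn (k a)) = mq (d * hn n) := fun a n d h => by
    obtain ⟨e, he⟩ := (ord (k a + n) (c a * (pp ^ n : ℕ) - d * (pp ^ k a : ℕ))).1 (by
      rw [sub_smul, mul_smul, mul_smul, up, add_comm, up, ← h, ← hc, sub_self])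
    have := congrArg (Int.cast : ℤ → K) he
    push_cast at this
    refine mq_eq.2 (O_of (O_int e) ?_)
    rw [← hn_add (k a) n, ← hn_add n (k a), add_comm n]
    linear_combination hn (k a + n) * this + e * hn_mul (k a + n)
  refine ⟨AddMonoidHom.mk' (fun a => mq (c a * hn (k a))) fun a b => ?_,
    (injective_iff_map_eq_zero _).2 fun a h => ?_, fun n => ?_⟩
  · rw [wd _ (k a + k b) (c a * (pp ^ k b : ℕ) + c b * (pp ^ k a : ℕ)) (by
      rw [add_smul, mul_smul, mul_smul, up, add_comm (k a), up, ← hc, ← hc]), ← map_add,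
      ← hn_add (k a) (k b), ← hn_add (k b) (k a), add_comm (k b)]
    congr 1
    push_cast
    ring
  · rw [hc a, ord, ← int_iff, mul_comm]
    exact mq_zero.1 h
  · exact (wd _ n 1 (one_smul _ _).symm).trans (by simp)

/-- the invariant of a subquotient -/
theorem ex_inv {A : Type} [AddCommGroup A] (Z B : AddSubgroup A)
    (tor : ∀ z ∈ Z, ∃ k : ℕ, pp ^ k • z ∈ B)
    (two : ∀ z ∈ Z, ∀ w ∈ Z, pp • z ∈ B → pp • w ∈ B → w ∉ B → ∃ c : ℤ, z - c • w ∈ B) (x : ℕ → A)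
    (xz : ∀ n, x n ∈ Z) (x0 : x 0 ∈ B) (x1 : x 1 ∉ B) (xs : ∀ n, pp • x (n + 1) - x n ∈ B) :
    ∃ f : A →+ K ⧸ O, (∀ b ∈ B, f b = 0) ∧ (∀ z ∈ Z, f z = 0 → z ∈ B) ∧
      ∀ n, f (x n) = mq (hn n) := by
  let q := QuotientAddGroup.mk' B
  have q0 : ∀ a, q a = 0 ↔ a ∈ B := QuotientAddGroup.eq_zero_iff
  have qe : ∀ a b, q a = q b ↔ a - b ∈ B := fun a b => QuotientAddGroup.eq_iff_sub_mem
  obtain ⟨f, f1, f2⟩ := ex_iso (H := Z.map q) (fun ⟨_, z, hz, rfl⟩ => (tor z hz).imp fun k h =>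
      Subtype.ext ((map_nsmul q _ _).symm.trans ((q0 _).2 h)))
    (fun ⟨_, z, hz, rfl⟩ ⟨_, w, hw, rfl⟩ a b d => (two z hz w hw
      ((q0 _).1 ((map_nsmul q _ _).trans (congrArg Subtype.val a)))
      ((q0 _).1 ((map_nsmul q _ _).trans (congrArg Subtype.val b)))
      fun m => d (Subtype.ext ((q0 _).2 m))).imp fun c h =>
        Subtype.ext (((qe _ _).2 h).trans (map_zsmul q _ _)))
    (fun n => ⟨q (x n), x n, xz n, rfl⟩) (Subtype.ext ((q0 _).2 x0))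
    (fun e => x1 ((q0 _).1 (congrArg Subtype.val e)))
    fun n => Subtype.ext ((map_nsmul q _ _).symm.trans ((qe _ _).2 (xs n)))
  letI : DivisibleBy (K ⧸ O) ℤ := (QuotientAddGroup.mk'_surjective O).divisibleBy _
    fun a n => map_zsmul _ n a
  obtain ⟨F, hF⟩ := (Module.Baer.of_divisible (K ⧸ O)).extension_property_addMonoidHom
    (Z.map q).subtype Subtype.val_injective f
  have e : ∀ z (hz : z ∈ Z), F (q z) = f ⟨q z, z, hz, rfl⟩ := fun z hz => by rw [← hF]; rfl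
  refine ⟨F.comp q, fun b hb => ?_, fun z hz h => ?_, fun n => (e _ (xz n)).trans (f2 n)⟩
  · rw [AddMonoidHom.comp_apply, (q0 b).2 hb, map_zero]
  · exact (q0 z).1 (congrArg Subtype.val ((injective_iff_map_eq_zero f).1 f1 _
      ((e z hz).symm.trans h)))

/-- `β ^ pp ^ n` is fixed by `D` -/
def Rt (D : Subgroup GQ) (n : ℕ) (β : Qb) : Prop := β ≠ 0 ∧ ∀ g ∈ D, g (β ^ pp ^ n) = β ^ pp ^ n

/-- `θ` has level `n` on `D` -/
def Lv (D : Subgroup GQ) (n : ℕ) (θ : GQ → K) : Prop := ∀ g ∈ D, (pp : K) ^ n * θ g ∈ O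

/-- the cup product of a character and a Kummer class -/
def cp (n : ℕ) (θ : GQ → K) (β : Qb) (g j : GQ) : K := θ g * (cy g * ((pp : K) ^ n * ku β j))

variable {n : ℕ} {x y : K} {D D' : Subgroup GQ} {β β' : Qb} {θ θ' : GQ → K} {g j : GQ}

theorem rt_of {a : Qb} (e : β ^ pp ^ n = a) (h0 : a ≠ 0) (h : ∀ g ∈ D, g a = a) : Rt D n β :=
  ⟨fun c => h0 (by rw [← e, c, zero_pow (pw_pos n).ne']), e ▸ h⟩

theorem rt_int {a : ℤ} (e : β ^ pp ^ n = a) (h0 : a ≠ 0) : Rt D n β :=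
  rt_of e (Int.cast_ne_zero.2 h0) fun g _ => map_intCast g a

theorem rt_nat {a : ℕ} (e : β ^ pp ^ n = a) (h0 : a ≠ 0) : Rt D n β :=
  rt_of e (Nat.cast_ne_zero.2 h0) fun g _ => map_natCast g a

theorem ex_rt (n : ℕ) (a : Qb) : ∃ β : Qb, β ^ pp ^ n = a :=
  IsAlgClosed.exists_pow_nat_eq a (pw_pos n)

theorem Lv.up (h : Lv D n θ) {m : ℕ} (e : n ≤ m) : Lv D m θ := fun g k => lev_up (h g k) e

theorem lv_of (hD : IsClosed (D : Set GQ)) (h : Ad D θ) : ∃ n, Lv D n θ :=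
  have := G2.cpt
  bdd hD.isCompact h.cont

namespace Rt

theorem mono (h : Rt D n β) (e : D' ≤ D) : Rt D' n β := ⟨h.1, fun g m => h.2 g (e m)⟩

theorem act (h : Rt D n β) (hg : g ∈ D) : g β = ex (ku β g) * β := (ku_spec h.1 (h.2 g hg)).1

theorem int (h : Rt D n β) (hg : g ∈ D) : (pp : K) ^ n * ku β g ∈ O := (ku_spec h.1 (h.2 g hg)).2

theorem coc (h : Rt D n β) (hg : g ∈ D) (hj : j ∈ D) :
    ku β (g * j) - ku β g - cy g * ku β j ∈ O := ku_coc h.1 (h.2 g hg) (h.2 j hj)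

theorem fix (h : Rt D n β) (hg : g ∈ D) : g β = β ↔ ku β g ∈ O := by
  rw [h.act hg, mul_eq_right₀ h.1, ex_one]

theorem eq (h : Rt D n β) (hg : g ∈ D) (e : g β = ex x * β) : ku β g - x ∈ O :=
  ex_eq.1 (mul_right_cancel₀ h.1 ((h.act hg).symm.trans e))

theorem mul (h : Rt D n β) (h' : Rt D n β') : Rt D n (β * β') :=
  ⟨mul_ne_zero h.1 h'.1, fun g m => by rw [mul_pow, map_mul, h.2 g m, h'.2 g m]⟩

theorem inv (h : Rt D n β) : Rt D n β⁻¹ :=
  ⟨inv_ne_zero h.1, fun g m => by rw [inv_pow, map_inv₀, h.2 g m]⟩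

theorem pow (h : Rt D n β) (k : ℕ) : Rt D n (β ^ k) :=
  ⟨pow_ne_zero _ h.1, fun g m => by rw [← pow_mul, mul_comm, pow_mul, map_pow, h.2 g m]⟩

theorem lev {k : ℕ} (h : Rt D (n + k) β) : Rt D n (β ^ pp ^ k) :=
  ⟨pow_ne_zero _ h.1, fun g m => by rw [← pow_mul, ← pow_add, add_comm k, h.2 g m]⟩

theorem ku_mul (h : Rt D n β) (h' : Rt D n β') (hg : g ∈ D) :
    ku (β * β') g - (ku β g + ku β' g) ∈ O :=
  (h.mul h').eq hg (by rw [map_mul, ex_add, mul_mul_mul_comm, ← h.act hg, ← h'.act hg])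

theorem ku_pow (h : Rt D n β) (k : ℕ) (hg : g ∈ D) : ku (β ^ k) g - k * ku β g ∈ O :=
  (h.pow k).eq hg (by rw [map_pow, ex_nat, ← mul_pow, ← h.act hg])

theorem unr {l : ℕ} {P : Ideal (𝓞 Qb)} (h : Ov l P) (hl : l ≠ pp) {b : ℤ} (hb : β ^ pp ^ n = b)
    (nd : ¬ (l : ℤ) ∣ b) (m : g ∈ inP P) : ku β g ∈ O := by
  have k : Rt ⊤ n β := rt_int hb fun e => nd (e ▸ dvd_zero _)
  refine O_dbl (O_of (neg_mem (sub_mem (k.ku_pow 2 (g := g) trivial) (((k.pow 2).fix trivial).1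
    ((eul h hl (n := n) (b := b.natAbs ^ 2) (by
      rw [← pow_mul, mul_comm, pow_mul, hb, Nat.cast_pow, Nat.cast_natAbs, ← Int.cast_pow,
        ← Int.cast_pow, sq_abs])
      (fun d => nd (Int.natCast_dvd.2 (h.1.dvd_of_dvd_pow d))) (m := 0)
      (fun x => by simpa using m x)).2 (pow_zero _))))) (by push_cast; ring))

end Rt

theorem O_cp (h : (pp : K) ^ n * x ∈ O) (g : GQ) (h' : y ∈ O) : x * (cy g * ((pp : K) ^ n * y)) ∈ O :=
  O_of (O_mul h (O_mul (O_cy g) h')) (by ring)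

theorem cp_z2 (k : Rt D n β) (hu : Ad D θ) (lu : Lv D n θ) : Z2 cy D (cp n θ β) :=
  ⟨(hu.cont.comp continuousOn_fst fun _ m => m.1).mul ((cy_cont.comp continuous_fst).mul
    (continuous_const.mul ((ku_cont β).comp continuous_snd))).continuousOn, fun g hg j hj i hi =>
    O_of (sub_mem (O_cp (lu g hg) g (k.coc hj hi))
      (O_mul (hu.add g hg j hj) (O_mul (O_cy g) (O_mul (O_cy j) (k.int hi)))))
      (by simp only [cp, d3, map_mul]; ring)⟩

/-- the cup product with the class of a `pp ^ n`-th power is trivial -/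
theorem cp_cob (hu : Ad D θ) (lu : Lv D n θ) {y : Qb} (y0 : y ≠ 0) (hy : ∀ g ∈ D, g y = y)
    (e : β ^ pp ^ n = y ^ pp ^ n) : B2 cy D (cp n θ β) := by
  have k : Rt D n β := rt_of e (pow_ne_zero _ y0) fun g m => by rw [map_pow, hy g m]
  obtain ⟨m, hm⟩ := ex_onto (n := n) (η := β / y) (by
    rw [div_pow, e, div_self (pow_ne_zero _ y0)])
  rw [div_eq_iff y0] at hm
  have c : ∀ j ∈ D, ku β j - (cy j - 1) * (hn n * m) ∈ O := fun j hj => k.eq hj (by
    rw [hm, map_mul, hy j hj, ex_cy, ← mul_assoc (ex _), ← ex_add]; congr 2; ring)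
  refine ⟨fun g => -(θ g * cy g * m), ((hu.cont.mul cy_cont.continuousOn).mul
    continuousOn_const).neg, fun g hg j hj => O_of (sub_mem (O_cp (lu g hg) g (c j hj))
      (O_mul (hu.add g hg j hj) (O_mul (O_cy g) (O_mul (O_cy j) (O_nat m))))) ?_⟩
  simp only [cp, d2, map_mul]
  linear_combination (θ g * cy g * (cy j - 1) * m) * hn_mul n

theorem cp_mul (k : Rt D n β) (k' : Rt D n β') (lu : Lv D n θ) (hg : g ∈ D) (hj : j ∈ D) :
    cp n θ (β * β') g j - (cp n θ β g j + cp n θ β' g j) ∈ O :=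
  O_of (O_cp (lu g hg) g (k.ku_mul k' hj)) (by simp only [cp]; ring)

theorem cp_pow (k : Rt D n β) (lu : Lv D n θ) (m : ℕ) (hg : g ∈ D) (hj : j ∈ D) :
    cp n θ (β ^ m) g j - m * cp n θ β g j ∈ O :=
  O_of (O_cp (lu g hg) g (k.ku_pow m hj)) (by simp only [cp]; ring)

theorem cp_lev {m : ℕ} (k : Rt D (n + m) β) (lu : Lv D n θ) (hg : g ∈ D) (hj : j ∈ D) :
    cp n θ (β ^ pp ^ m) g j - cp (n + m) θ β g j ∈ O :=
  O_of (O_cp (lu g hg) g (k.ku_pow (pp ^ m) hj)) (by simp only [cp]; push_cast; ring)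

theorem cp_congr (k : Rt D n β) (hg : g ∈ D) (hj : j ∈ D) (e : θ g - θ' g ∈ O) :
    cp n θ β g j - cp n θ' β g j ∈ O :=
  O_of (O_mul e (O_mul (O_cy g) (k.int hj))) (by simp only [cp]; ring)

theorem cp_cmp (k : Rt D n β) (hu : Ad D θ) (lu : Lv D n θ) {y : Qb} (y0 : y ≠ 0)
    (hy : ∀ g ∈ D, g y = y) (e : β' ^ pp ^ n = β ^ pp ^ n * y ^ pp ^ n) :
    B2 cy D (cp n θ β' - cp n θ β) := by
  have e' : (β' / β) ^ pp ^ n = y ^ pp ^ n := by
    rw [div_pow, e, mul_div_cancel_left₀ _ (pow_ne_zero _ k.1)]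
  refine b2_congr (cp_cob hu lu y0 hy e') fun g hg j hj => ?_
  have := cp_mul (rt_of e' (pow_ne_zero _ y0) fun g m => by rw [map_pow, hy g m]) k lu hg hj
  rw [div_mul_cancel₀ _ k.1] at this
  exact O_of this (by simp only [Pi.sub_apply]; ring)

/-! ### the logarithm -/

/-- units -/
def Un (x : K) : Prop := ‖x‖ = 1

theorem Un.mem (h : Un x) : x ∈ O := h.le

theorem Un.ne (h : Un x) : x ≠ 0 := norm_ne_zero_iff.1 (h.trans_ne one_ne_zero)

theorem Un.mul (h : Un x) (h' : Un y) : Un (x * y) := by rw [Un, norm_mul, h, h', mul_one]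

theorem Un.pow (h : Un x) (k : ℕ) : Un (x ^ k) := by rw [Un, norm_pow, h, one_pow]

theorem Un.inv' (h : Un x) : Un x⁻¹ := by rw [Un, norm_inv, h, inv_one]

theorem un_cy (g : GQ) : Un (cy g) := cy_norm g

theorem un_nat {a : ℕ} (h : ¬ pp ∣ a) : Un a := Ah.nrm_odd Ah.two_lt' h

theorem un_int {a : ℤ} (h : ¬ (pp : ℤ) ∣ a) : Un a :=
  le_antisymm (Padic.norm_int_le_one a) (not_lt.1 fun k => h (Padic.norm_intCast_lt_one_iff.1 k))

theorem Un.inv (h : Un x) : ∃ y ∈ O, x * y = 1 := ⟨_, h.inv'.mem, mul_inv_cancel₀ h.ne⟩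

theorem lt_iff : ‖x‖ < 1 ↔ hn 1 * x ∈ O := by
  rw [mem_O, norm_mul, hn_one, norm_inv, Padic.norm_p, inv_inv, ← le_div_iff₀' Sb.r_pos, one_div,
    ← zpow_neg_one, Padic.norm_le_pow_iff_norm_lt_pow_add_one, neg_add_cancel, zpow_zero]

/-- the theorem of Fermat -/
theorem Un.fer (h : Un x) : ‖x ^ (pp - 1) - 1‖ < 1 := by
  let u : ℤ_[pp] := ⟨_, h.le⟩
  have k : ¬ ‖u‖ < 1 := fun k => k.ne h
  change ‖u ^ (pp - 1) - 1‖ < 1
  rw [← PadicInt.mem_nonunits, ← IsLocalRing.mem_maximalIdeal, ← PadicInt.ker_toZMod,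
    RingHom.mem_ker] at k ⊢
  rw [map_sub, map_one, map_pow, ZMod.pow_card_sub_one_eq_one k, sub_self]

/-- the logarithm -/
def Lg (x : K) : K := Sb.Lg x

theorem Lg_mul' (h : x ≠ 0) (h' : y ≠ 0) : Lg (x * y) = Lg x + Lg y :=
  (Sb.Lg_mul Ah.two_K (Sb.gd_padic h) (Sb.gd_padic h')).2

theorem Lg_mul (h : Un x) (h' : Un y) : Lg (x * y) = Lg x + Lg y := Lg_mul' h.ne h'.ne

theorem Lg_pow (h : x ≠ 0) (k : ℕ) : Lg (x ^ k) = k * Lg x :=
  (Sb.Lg_pow Ah.two_K (Sb.gd_padic h) k).2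

theorem Lg_tor {k : ℕ} (k0 : k ≠ 0) (h : x ^ k = 1) : Lg x = 0 := by
  have := Lg_pow (x := x) (fun e => by simp [e, k0] at h) k
  rw [h, Lg, (Sb.Lg_one Ah.two_K).2, eq_comm, mul_eq_zero] at this
  exact this.resolve_left (Nat.cast_ne_zero.2 k0)

theorem Lg_near (h : ‖x - 1‖ < 1) : ∃ c ∈ O, Lg x = (x - 1) * (1 + (x - 1) * c) := by
  have h' : ‖1 - x‖ < 1 := by rwa [norm_sub_rev]
  have k : ‖Lg x - (x - 1)‖ ≤ ‖x - 1‖ ^ 2 := by
    rw [Lg, (Sb.Lg_near Ah.two_K h').2]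
    refine le_of_tendsto' ((Sb.lgs_lim Ah.two_K h').sub_const _).norm fun m => ?_
    obtain ⟨r, hr⟩ := O_ex (x := x - 1) h.le
    obtain ⟨y, e⟩ := Ah.pw_one (r := r) (by rwa [← hr] at h) m
    have e' := congrArg ((↑) : ℤ_[pp] → K) e
    push_cast at e'
    rw [hr, add_sub_cancel] at e'
    rw [e', add_sub_cancel_left, mul_assoc, mul_div_cancel_left₀ _ (pow_ne_zero _ pk_ne), mul_add,
      mul_one, add_sub_cancel_left, ← mul_assoc, ← sq, norm_mul, norm_pow]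
    exact mul_le_of_le_one_right (by positivity) y.2
  by_cases e : x - 1 = 0
  · exact ⟨0, zero_mem _, by simpa [e] using k⟩
  refine ⟨(Lg x - (x - 1)) / (x - 1) ^ 2, ?_, by field_simp; ring⟩
  rwa [mem_O, norm_div, norm_pow, div_le_one (by positivity)]

theorem Lg_un1 (h : ‖x - 1‖ < 1) : ∃ u, Un u ∧ Lg x = (x - 1) * u :=
  let ⟨c, c1, c2⟩ := Lg_near h
  ⟨_, Ah.nrm_one (by
    rw [add_sub_cancel_left, norm_mul]
    exact (mul_le_of_le_one_right (norm_nonneg _) c1).trans_lt h), c2⟩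

theorem un_pred : Un (pp - 1 : ℕ) := un_nat fun d =>
  absurd (Nat.le_of_dvd (Nat.sub_pos_of_lt one_lt) d) (by have := pp_pos; omega)

theorem Lg_unit (h : Un x) : ∃ u, Un u ∧ Lg x = (x ^ (pp - 1) - 1) * u := by
  obtain ⟨u, u1, u2⟩ := Lg_un1 h.fer
  refine ⟨_, u1.mul un_pred.inv', ?_⟩
  rw [← mul_assoc, ← u2, Lg_pow h.ne, mul_comm _ (Lg x), mul_inv_cancel_right₀ un_pred.ne]

theorem Lg_four (h : Un x) : hn 1 * Lg x ∈ O := by
  obtain ⟨u, u1, u2⟩ := Lg_unit h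
  exact O_of (O_mul (lt_iff.1 h.fer) u1.mem) (by rw [u2]; ring)

theorem Lg_zero (h : Un x) : Lg x = 0 ↔ x ^ (pp - 1) = 1 := by
  obtain ⟨u, u1, u2⟩ := Lg_unit h
  rw [u2, mul_eq_zero, sub_eq_zero, or_iff_left u1.ne]

/-- the cyclotomic character with values in the additive group -/
def lam (g : GQ) : K := Lg (cy g)

theorem lam_mul (g j : GQ) : lam (g * j) = lam g + lam j := by
  rw [lam, map_mul, Lg_mul (un_cy g) (un_cy j), lam, lam]

theorem lam_cont : Continuous lam := continuous_iff_continuousAt.2 fun g => by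
  refine tendsto_iff_norm_sub_tendsto_zero.2 (squeeze_zero (fun _ => norm_nonneg _)
    (g := fun j => ‖cy (g⁻¹ * j) ^ (pp - 1) - 1‖) (fun j => ?_) ?_)
  · obtain ⟨u, u1, u2⟩ := Lg_unit (un_cy (g⁻¹ * j))
    rw [← mul_inv_cancel_left g j, lam_mul, add_sub_cancel_left, inv_mul_cancel_left, lam, u2,
      norm_mul _ u]
    exact mul_le_of_le_one_right (norm_nonneg _) u1.mem
  · have : Continuous fun j => ‖cy (g⁻¹ * j) ^ (pp - 1) - 1‖ := by have := cy_cont; fun_prop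
    simpa using this.tendsto g

theorem lam_ad (D : Subgroup GQ) (t : K) : Ad D fun g => t * lam g :=
  ⟨(continuous_const.mul lam_cont).continuousOn, fun g _ j _ =>
    O_of (zero_mem _) (by rw [lam_mul]; ring)⟩

theorem lam_zero (h : cy g ^ 2 = 1) : lam g = 0 := Lg_tor two_ne_zero h

theorem cy_fb' {l : ℕ} {P : Ideal (𝓞 Qb)} (h : Ov l P) (hl : l ≠ pp) {φ : GQ} (hφ : Fb l P φ) :
    cy φ = l := sub_eq_zero.1 (zero_of (cy_fb h hl hφ))

end Vale.Agent.P014U.Iv
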